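import Vale.Agent.P032.R2.H659.S2K
import Vale.Agent.P032.R2.H659.S2A
import Vale.Agent.P032.R2.H659.S2C
import Vale.Agent.P032.R2.H137.Mir
import Vale.Agent.P032.R2.H805.S2m.W0.Main
import Vale.Agent.P032.R2.H805.S2m.W1.Main
import Vale.Agent.P032.R2.H805.S2m.W2.Main
import Vale.Agent.P032.R2.H805.S2m.W3.Main
import Vale.Agent.P032.R2.H805.S2m.W4.Main
import Vale.Agent.P032.R2.H741.N5.Top
import Vale.Agent.P032.R2.H805.S2m.W6.Main
import Vale.Agent.P032.R2.H741.N7.Top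
import Vale.Agent.P032.R2.H805.S2m.W8.Main
import Vale.Agent.P032.R2.H805.S2m.W9.Main
import Vale.Agent.P032.R2.H805.S2m.Cover

/-!
# P032: the second certificate

`boxH`: the half box from the ten start words of the ring of `z` (`S2m.cover`) and one certificate for
each word; `certS2`: the second certificate for every word triangulation.
-/

set_option autoImplicit false

open Set Filter Topology Metric

noncomputable section

namespace Vale.Agent.P032.R2.H659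

open Vale.Agent.P032.Six Vale.Agent.P032.Words Vale.Agent.P032.S5.H767
open Vale.Agent.P032.R2.H741.Tp Vale.Agent.P032.R2.H264 Vale.Agent.P032.R2.H137
open Vale.Agent.P032.R2.H805

variable {U : Fin 6 → Set ℂ} {T : ℂ → Set (Fin 6)}

theorem goodS : goodb rdS2n = true := rfl

theorem crtW0 : Crt rdS2n (exH ++ S2m.W0.units) S2m.W0.inv :=
  crt_mk (ex := S2m.W0.ex) goodS S2m.W0.inv_st S2m.W0.start S2m.W0.step S2m.W0.fin

theorem crtW1 : Crt rdS2n (exH ++ S2m.W1.units) S2m.W1.inv :=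
  crt_mk (ex := S2m.W1.ex) goodS S2m.W1.inv_st S2m.W1.start S2m.W1.step S2m.W1.fin

theorem crtW2 : Crt rdS2n (exH ++ S2m.W2.units) S2m.W2.inv :=
  crt_mk (ex := S2m.W2.ex) goodS S2m.W2.inv_st S2m.W2.start S2m.W2.step S2m.W2.fin

theorem crtW3 : Crt rdS2n (exH ++ S2m.W3.units) S2m.W3.inv :=
  crt_mk (ex := S2m.W3.ex) goodS S2m.W3.inv_st S2m.W3.start S2m.W3.step S2m.W3.fin

theorem crtW4 : Crt rdS2n (exH ++ S2m.W4.units) S2m.W4.inv :=
  crt_mk (ex := S2m.W4.ex) goodS S2m.W4.inv_st S2m.W4.start S2m.W4.step S2m.W4.fin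

theorem crtW5 :
    Crt rdS2n (exH ++ [[762], [768], [780], [784], [798], [800]]) R2.H741.N5.inv where
  hst := R2.H741.N5.inv_st
  start := R2.H741.N5.top_start
  step := R2.H741.N5.top_step
  fin := R2.H741.N5.top_fin

theorem crtW6 : Crt rdS2n (exH ++ S2m.W6.units) S2m.W6.inv :=
  crt_mk (ex := S2m.W6.ex) goodS S2m.W6.inv_st S2m.W6.start S2m.W6.step S2m.W6.fin

theorem crtW7 :
    Crt rdS2n (exH ++ [[762], [768], [780], [786], [798], [800]]) R2.H741.N7.inv where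
  hst := R2.H741.N7.inv_st
  start := R2.H741.N7.top_start
  step := R2.H741.N7.top_step
  fin := R2.H741.N7.top_fin

theorem crtW8 : Crt rdS2n (exH ++ S2m.W8.units) S2m.W8.inv :=
  crt_mk (ex := S2m.W8.ex) goodS S2m.W8.inv_st S2m.W8.start S2m.W8.step S2m.W8.fin

theorem crtW9 : Crt rdS2n (exH ++ S2m.W9.units) S2m.W9.inv :=
  crt_mk (ex := S2m.W9.ex) goodS S2m.W9.inv_st S2m.W9.start S2m.W9.step S2m.W9.fin

/-- the start words as unit clauses -/
def wordsS : List (List (List ℕ)) :=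
  [S2m.W0.units,
    S2m.W1.units,
    S2m.W2.units,
    S2m.W3.units,
    S2m.W4.units,
    [[762], [768], [780], [784], [798], [800]],
    S2m.W6.units,
    [[762], [768], [780], [786], [798], [800]],
    S2m.W8.units,
    S2m.W9.units]

theorem wordsS_eq : S2m.words.map lits = wordsS := rfl

theorem wordsS_iw : ∀ u ∈ wordsS, Iw u := fun u hu =>
  Iw.of (List.all_eq_true.1 (show wordsS.all iw = true by decide) u hu)

theorem wordsS_cover (S : Sem) (F : SF rdS2n S) (F' : TF rdS2n S) (F'' : IF rdS2n S)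
    (hE : ∀ c ∈ exH, Hd (val S) c) : ∃ u ∈ wordsS, ∀ c ∈ u, Hd (val S) c := by
  obtain ⟨u, hu, h⟩ := S2m.cover (ax_of goodS F F') (ci_of goodS F'') hE
  exact ⟨lits u, wordsS_eq ▸ List.mem_map_of_mem hu, hd_lits h⟩

theorem wordsS_crt : ∀ u ∈ wordsS, ∃ inv, Crt rdS2n (exH ++ u) inv :=
  List.forall_mem_cons.2 ⟨⟨_, crtW0⟩,
    List.forall_mem_cons.2 ⟨⟨_, crtW1⟩,
    List.forall_mem_cons.2 ⟨⟨_, crtW2⟩,
    List.forall_mem_cons.2 ⟨⟨_, crtW3⟩,
    List.forall_mem_cons.2 ⟨⟨_, crtW4⟩,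
    List.forall_mem_cons.2 ⟨⟨_, crtW5⟩,
    List.forall_mem_cons.2 ⟨⟨_, crtW6⟩,
    List.forall_mem_cons.2 ⟨⟨_, crtW7⟩,
    List.forall_mem_cons.2 ⟨⟨_, crtW8⟩,
    List.forall_mem_cons.2 ⟨⟨_, crtW9⟩,
    (by simp)⟩⟩⟩⟩⟩⟩⟩⟩⟩⟩

/-- **The half box.** -/
theorem boxH (H : WT U T) (hmin : MinF U T) : BoxH T :=
  boxH_of_words (fr_S2n H hmin) wordsS_iw wordsS_cover wordsS_crt

/-- **The second certificate.** -/
theorem certS2 (H : WT U T) (hmin : MinF U T) : CertS2 T :=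
  H.certS2_half hmin (boxA H hmin) (boxC H hmin) (fun H hmin => boxH H hmin)

end Vale.Agent.P032.R2.H659
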